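import Vale.Agent.P084.Energy
import Vale.Agent.P084.Final
import Vale.Agent.P084.Reduction

/-!
Every finite-dimensional real normed space has the Mazur-Ulam property.
-/

namespace Vale.Agent.Results.P084.FiniteDimTingley

open Metric

theorem result (X : Type*) [NormedAddCommGroup X] [NormedSpace ℝ X] [FiniteDimensional ℝ X]
    (Y : Type*) [NormedAddCommGroup Y] [NormedSpace ℝ Y]
    (f : sphere (0 : X) 1 → sphere (0 : Y) 1) (hf : Isometry f) (hs : Function.Surjective f) :
    ∃ T : X ≃ₗᵢ[ℝ] Y, ∀ x : sphere (0 : X) 1, T (x : X) = (f x : Y) :=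
  Vale.Agent.P084.reduction (fun _ _ S =>
    S.linear_of_ext S.continuous_ext (fun _ hx => S.ext_boundary hx) S.ext_eq_yI)
    X Y f hf hs

end Vale.Agent.Results.P084.FiniteDimTingley
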