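import Vale.Agent.P084.Odd.Main
import Vale.Agent.P084.Slice.Main
import Vale.Agent.Results.P084.FiniteDimTingley

/-!
Surjective isometries of unit spheres of arbitrary real normed spaces preserve antipodes, and
for every real normed space `T` and `1 < p < ∞` the `l_p`-sum of `T` and a line has the
Mazur-Ulam property.
-/

namespace Vale.Agent.Results.P084.AntipodalLineSum

open Metric
open scoped ENNReal

universe u v w z

theorem result :
    (∀ (X : Type u) [NormedAddCommGroup X] [NormedSpace ℝ X]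
      (Y : Type v) [NormedAddCommGroup Y] [NormedSpace ℝ Y]
      (f : sphere (0 : X) 1 → sphere (0 : Y) 1), Isometry f → Function.Surjective f →
      ∀ x : sphere (0 : X) 1, (f (-x) : Y) = -(f x : Y)) ∧
    (∀ (p : ℝ≥0∞) [Fact (1 ≤ p)], 1 < p → p ≠ ⊤ →
      ∀ (T : Type w) [NormedAddCommGroup T] [NormedSpace ℝ T]
      (Y : Type z) [NormedAddCommGroup Y] [NormedSpace ℝ Y]
      (f : sphere (0 : WithLp p (T × ℝ)) 1 → sphere (0 : Y) 1), Isometry f →
      Function.Surjective f →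
      ∃ A : WithLp p (T × ℝ) ≃ₗᵢ[ℝ] Y,
        ∀ x : sphere (0 : WithLp p (T × ℝ)) 1, A (x : WithLp p (T × ℝ)) = (f x : Y)) := by
  refine ⟨fun X _ _ Y _ _ f hf hs x => Vale.Agent.P084.Odd.apply_neg f hf hs x, ?_⟩
  intro p _ hp1 hp T _ _ Y _ _ f hf hs
  have hpr : 1 < p.toReal := by
    have := (ENNReal.toReal_lt_toReal ENNReal.one_ne_top hp).2 hp1
    rwa [ENNReal.toReal_one] at this
  have hp0 : 0 < p.toReal := by linarith
  by_cases hfin : FiniteDimensional ℝ (WithLp p (T × ℝ))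
  · exact Vale.Agent.Results.P084.FiniteDimTingley.result _ Y f hf hs
  let χ : WithLp p (T × ℝ) →ₗ[ℝ] ℝ :=
    (LinearMap.snd ℝ T ℝ).comp (WithLp.linearEquiv p ℝ (T × ℝ)).toLinearMap
  have hχ : ∀ z, χ z = z.snd := fun z => rfl
  have hnorm : ∀ z : WithLp p (T × ℝ),
      ‖z‖ ^ p.toReal = ‖z.fst‖ ^ p.toReal + |z.snd| ^ p.toReal := fun z => by
    rw [WithLp.prod_norm_eq_add hp0, Real.norm_eq_abs, one_div,
      Real.rpow_inv_rpow (add_nonneg (Real.rpow_nonneg (norm_nonneg _) _)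
        (Real.rpow_nonneg (abs_nonneg _) _)) hp0.ne']
  have hN : ‖WithLp.toLp p ((0 : T), (1 : ℝ))‖ = 1 := by
    rw [← Real.rpow_left_inj (norm_nonneg _) zero_le_one hp0.ne', hnorm]
    simp [Real.zero_rpow hp0.ne']
  have hsp : Vale.Agent.P084.Slice.Split p.toReal (WithLp.toLp p ((0 : T), (1 : ℝ))) χ := by
    refine ⟨rfl, hN, fun z => ?_⟩
    have he : z - χ z • WithLp.toLp p ((0 : T), (1 : ℝ)) = WithLp.toLp p (z.fst, (0 : ℝ)) := by
      apply WithLp.ofLp_injective
      refine Prod.ext ?_ ?_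
      · simp [hχ]
      · simp [hχ]
    rw [he, hnorm z, hnorm (WithLp.toLp p (z.fst, (0 : ℝ)))]
    simp [hχ, Real.zero_rpow hp0.ne']
  exact Vale.Agent.P084.Slice.exists_extension hpr hsp hfin f hf hs

end Vale.Agent.Results.P084.AntipodalLineSum
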