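import Vale.Agent.P084.Energy
import Vale.Agent.P084.Final
import Vale.Agent.P084.Reduction
import Vale.Agent.P084.Types.Lp

/-!
Tingley's problem for closed subspaces of `l_p` sums of finite-dimensional spaces.
-/

namespace Vale.Agent.Results.P084.LpSumSubspaces

open Metric
open scoped ENNReal lp

theorem result {ι κ : Type*} {E : ι → Type*} {F : κ → Type*}
    [∀ i, NormedAddCommGroup (E i)] [∀ i, NormedSpace ℝ (E i)] [∀ i, FiniteDimensional ℝ (E i)]
    [∀ j, NormedAddCommGroup (F j)] [∀ j, NormedSpace ℝ (F j)] [∀ j, FiniteDimensional ℝ (F j)]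
    {p q : ℝ≥0∞} [Fact (1 ≤ p)] [Fact (1 ≤ q)] (hp1 : 1 < p) (hp : p ≠ ⊤) (hq1 : 1 < q)
    (hq : q ≠ ⊤)
    (X : Type*) [NormedAddCommGroup X] [NormedSpace ℝ X] [CompleteSpace X]
    (Y : Type*) [NormedAddCommGroup Y] [NormedSpace ℝ Y] [CompleteSpace Y]
    (J : X →ₗᵢ[ℝ] lp E p) (J' : Y →ₗᵢ[ℝ] lp F q)
    (f : sphere (0 : X) 1 → sphere (0 : Y) 1) (hf : Isometry f) (hs : Function.Surjective f) :
    ∃ T : X ≃ₗᵢ[ℝ] Y, ∀ x : sphere (0 : X) 1, T (x : X) = (f x : Y) := by
  by_cases hX : FiniteDimensional ℝ X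
  · exact Vale.Agent.P084.reduction (fun _ _ S =>
      S.linear_of_ext S.continuous_ext (fun _ hx => S.ext_boundary hx) S.ext_eq_yI) X Y f hf hs
  by_cases hY : FiniteDimensional ℝ Y
  · have hg := Function.surjInv_eq hs
    set g := Function.surjInv hs
    obtain ⟨T, hT⟩ := Vale.Agent.P084.reduction (fun _ _ S =>
      S.linear_of_ext S.continuous_ext (fun _ hx => S.ext_boundary hx) S.ext_eq_yI) Y X g
      (Isometry.of_dist_eq fun a b => by rw [← hf.dist_eq, hg, hg])
      (fun x => ⟨f x, hf.injective (hg _)⟩)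
    refine ⟨T.symm, fun x => ?_⟩
    have hgx : g (f x) = x := hf.injective (hg _)
    have := hT (f x)
    rw [hgx] at this
    rw [← this, T.symm_apply_apply]
  have hp' : 1 < p.toReal := (ENNReal.toReal_lt_toReal ENNReal.one_ne_top hp).2 hp1
  have hq' : 1 < q.toReal := (ENNReal.toReal_lt_toReal ENNReal.one_ne_top hq).2 hq1
  have hXt := Vale.Agent.P084.Types.typed_of_isometry J hp'
    (Vale.Agent.P084.Types.typed_lp hp (Filter.hyperfilter ℕ))
  have hYt := Vale.Agent.P084.Types.typed_of_isometry J' hq'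
    (Vale.Agent.P084.Types.typed_lp hq (Filter.hyperfilter ℕ))
  exact Vale.Agent.P084.Types.linear_of_typed hp'.le hq'.le
    (Vale.Agent.P084.Types.hasNull (by linarith) hX hXt) hXt
    (Vale.Agent.P084.Types.hasNull (by linarith) hY hYt) hYt f hf hs

end Vale.Agent.Results.P084.LpSumSubspaces
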