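import Vale.Agent.P084.Strict.Main
import Vale.Agent.Results.P084.FiniteDimTingley

/-!
Every strictly convex real normed space has the Mazur-Ulam property; the same holds when the
target is strictly convex.
-/

namespace Vale.Agent.Results.P084.StrictConvexMUP

open Metric

theorem result (X : Type*) [NormedAddCommGroup X] [NormedSpace ℝ X]
    (Y : Type*) [NormedAddCommGroup Y] [NormedSpace ℝ Y]
    (hsc : StrictConvexSpace ℝ X ∨ StrictConvexSpace ℝ Y)
    (f : sphere (0 : X) 1 → sphere (0 : Y) 1) (hf : Isometry f) (hs : Function.Surjective f) :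
    ∃ T : X ≃ₗᵢ[ℝ] Y, ∀ x : sphere (0 : X) 1, T (x : X) = (f x : Y) := by
  rcases hsc with h | h
  · by_cases hfin : FiniteDimensional ℝ X
    · exact Vale.Agent.Results.P084.FiniteDimTingley.result X Y f hf hs
    · exact Vale.Agent.P084.Strict.exists_extension hfin f hf hs
  · have hg := Function.surjInv_eq hs
    set g := Function.surjInv hs
    have hgi : Isometry g := Isometry.of_dist_eq fun a b => by rw [← hf.dist_eq, hg, hg]
    have hgs : Function.Surjective g := fun x => ⟨f x, hf.injective (hg _)⟩
    obtain ⟨T, hT⟩ : ∃ T : Y ≃ₗᵢ[ℝ] X, ∀ y : sphere (0 : Y) 1, T (y : Y) = (g y : X) := by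
      by_cases hfin : FiniteDimensional ℝ Y
      · exact Vale.Agent.Results.P084.FiniteDimTingley.result Y X g hgi hgs
      · exact Vale.Agent.P084.Strict.exists_extension hfin g hgi hgs
    refine ⟨T.symm, fun x => ?_⟩
    have := hT (f x)
    rw [show g (f x) = x from hf.injective (hg _)] at this
    rw [← this, T.symm_apply_apply]

end Vale.Agent.Results.P084.StrictConvexMUP
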